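import Vale.Agent.P229.Hodo.Map

/-!
P229, hodograph: the solution is of size `t` on the axis `x = 0`.
-/

namespace Vale.Agent.P229

open Real Set Filter
open scoped ContDiff Topology

lemma mvt_abs {h h' : ℝ → ℝ} {L a b : ℝ} (hd : ∀ s ∈ uIcc a b, HasDerivAt h (h' s) s)
    (hb : ∀ s ∈ uIcc a b, |h' s| ≤ L) : |h b - h a| ≤ L * |b - a| := by
  simpa [Real.norm_eq_abs] using (convex_uIcc a b).norm_image_sub_le_of_norm_hasDerivWithin_le
    (fun s hs => (hd s hs).hasDerivWithinAt) hb left_mem_uIcc right_mem_uIcc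

lemma abs_le_of_grad {g : E2 → ℝ} (hg : Differentiable ℝ g) {L1 L2 : ℝ}
    (h1 : ∀ z, |d1 g z| ≤ L1) (h2 : ∀ z, |d2 g z| ≤ L2) (h0 : g 0 = 0) (z : E2) :
    |g z| ≤ L1 * |z.1| + L2 * |z.2| := by
  have e1 := mvt_abs (h := fun s => g (s, z.2)) (a := 0) (b := z.1)
    (fun s _ => d1_hasDerivAt hg s z.2) fun s _ => h1 _
  have e2 := mvt_abs (h := fun s => g (0, s)) (a := 0) (b := z.2)
    (fun s _ => d2_hasDerivAt hg 0 s) fun s _ => h2 _
  have h0' : g (0, 0) = 0 := h0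
  simp only [h0', sub_zero] at e1 e2
  have := abs_sub_abs_le_abs_sub (g (z.1, z.2)) (g (0, z.2))
  linarith [show g (z.1, z.2) = g z from rfl]

/-- Uniform bounds of the first derivatives of the profile. -/
lemma psi_deriv_bounds {n : ℕ} (hn : 3 ≤ n) :
    ∃ P : ℝ, 1 ≤ P ∧ ∀ δ : ℝ, 0 < δ → δ ≤ 1 → ∀ z : E2,
      |psi n δ z| ≤ P ∧ |d1 (psi n δ) z| ≤ P ∧ |d2 (psi n δ) z| ≤ P ∧
      |d1 (d1 (psi n δ)) z| ≤ P ∧ |d1 (d2 (psi n δ)) z| ≤ P ∧
      |lap (psi n δ) z| ≤ P ∧ |d1 (lap (psi n δ)) z| ≤ P := by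
  obtain ⟨C0, h0⟩ := psiBound n 0 (Nat.zero_le n)
  obtain ⟨C1, h1⟩ := psiBound n 1 (by omega)
  obtain ⟨C2, h2⟩ := psiBound n 2 (by omega)
  obtain ⟨C3, h3⟩ := psiBound n 3 hn
  refine ⟨max 1 (max C0 (max C1 (max (2 * C2) (2 * C3)))), le_max_left _ _,
    fun δ hδ hδ1 z => ?_⟩
  have hψ := contDiff_psi n δ
  set P := max 1 (max C0 (max C1 (max (2 * C2) (2 * C3)))) with hP
  have hC2 : 0 ≤ C2 := (norm_nonneg _).trans (h2 δ hδ hδ1 z)
  have hC3 : 0 ≤ C3 := (norm_nonneg _).trans (h3 δ hδ hδ1 z)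
  have p0 : C0 ≤ P := by simp [hP]
  have p1 : C1 ≤ P := by simp [hP]
  have p2 : 2 * C2 ≤ P := by simp [hP]
  have p3 : 2 * C3 ≤ P := by simp [hP]
  have q11 : |d1 (d1 (psi n δ)) z| ≤ C2 :=
    ((abs_d1_le _ z).trans (norm_iter_d1_le hψ 1 z)).trans (h2 δ hδ hδ1 z)
  have q12 : |d1 (d2 (psi n δ)) z| ≤ C2 :=
    ((abs_d1_le _ z).trans (norm_iter_d2_le hψ 1 z)).trans (h2 δ hδ hδ1 z)
  have q22 : |d2 (d2 (psi n δ)) z| ≤ C2 :=
    ((abs_d2_le _ z).trans (norm_iter_d2_le hψ 1 z)).trans (h2 δ hδ hδ1 z)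
  refine ⟨?_, ((abs_d1_le _ z).trans (h1 δ hδ hδ1 z)).trans p1,
    ((abs_d2_le _ z).trans (h1 δ hδ hδ1 z)).trans p1, by linarith, by linarith, ?_, ?_⟩
  · have := h0 δ hδ hδ1 z
    rw [norm_iteratedFDeriv_zero, Real.norm_eq_abs] at this
    linarith
  · have := abs_add_le (d1 (d1 (psi n δ)) z) (d2 (d2 (psi n δ)) z)
    simp only [lap]
    linarith
  · have ha : |d1 (d1 (d1 (psi n δ))) z| ≤ C3 :=
      (((abs_d1_le _ z).trans (norm_iter_d1_le (contDiff_d1 hψ) 1 z)).trans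
        (norm_iter_d1_le hψ 2 z)).trans (h3 δ hδ hδ1 z)
    have hb : |d1 (d2 (d2 (psi n δ))) z| ≤ C3 :=
      (((abs_d1_le _ z).trans (norm_iter_d2_le (contDiff_d2 hψ) 1 z)).trans
        (norm_iter_d2_le hψ 2 z)).trans (h3 δ hδ hδ1 z)
    have d11 := (contDiff_d1 (contDiff_d1 hψ)).differentiable (by simp)
    have d22 := (contDiff_d2 (contDiff_d2 hψ)).differentiable (by simp)
    have e : d1 (lap (psi n δ)) z
        = d1 (d1 (d1 (psi n δ))) z + d1 (d2 (d2 (psi n δ))) z := by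
      show fderiv ℝ (fun w => d1 (d1 (psi n δ)) w + d2 (d2 (psi n δ)) w) z (1, 0) = _
      rw [fderiv_fun_add (d11 z) (d22 z)]; rfl
    rw [e]
    have := abs_add_le (d1 (d1 (d1 (psi n δ))) z) (d1 (d2 (d2 (psi n δ))) z)
    linarith

lemma contDiff_lap {f : E2 → ℝ} (hf : ContDiff ℝ ∞ f) : ContDiff ℝ ∞ (lap f) :=
  (contDiff_d1 (contDiff_d1 hf)).add (contDiff_d2 (contDiff_d2 hf))

lemma isOpen_box (L : ℝ) : IsOpen (box L) :=
  (isOpen_lt continuous_fst.abs continuous_const).inter (isOpen_lt continuous_snd.abs continuous_const)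

lemma abs_add_mul_le {A Bv C D a b c d : ℝ} (h1 : |A| ≤ a) (h2 : |Bv| ≤ b) (h3 : |C| ≤ c)
    (h4 : |D| ≤ d) : |A * Bv + C * D| ≤ a * b + c * d := by
  refine (abs_add_le _ _).trans ?_
  rw [abs_mul, abs_mul]
  exact add_le_add (mul_le_mul h1 h2 (abs_nonneg _) ((abs_nonneg _).trans h1))
    (mul_le_mul h3 h4 (abs_nonneg _) ((abs_nonneg _).trans h3))

/-- Bounds of the coefficient combination `Q` and its derivative. -/
lemma Q_bounds {P t μ lam L Lx ψv ψ1 u v a b : ℝ} (hP : 1 ≤ P) (ht : 0 ≤ t) (hμ0 : 0 ≤ μ)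
    (hμ : μ ≤ 1) (hlam : lam ^ 2 ≤ 1) (hL : |L| ≤ P) (hLx : |Lx| ≤ P) (hψ : |ψv| ≤ P)
    (hψ1 : |ψ1| ≤ P) (hu : |u| ≤ 11) (hv : |v| ≤ 2) (ha : |a| ≤ 2) (hb : |b| ≤ 1) :
    |(-t) * L * (Real.exp (2 * μ * ψv) - lam ^ 2 * (u ^ 2 + v ^ 2))|
        ≤ 200 * P ^ 2 * Real.exp (2 * P) * t ∧
    |(-t) * Lx * (Real.exp (2 * μ * ψv) - lam ^ 2 * (u ^ 2 + v ^ 2)) +
        (-t) * L * (Real.exp (2 * μ * ψv) * (2 * μ * ψ1) - lam ^ 2 * (2 * u * a + 2 * v * b))|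
        ≤ 200 * P ^ 2 * Real.exp (2 * P) * t := by
  obtain ⟨E, hE⟩ : ∃ E, E = Real.exp (2 * μ * ψv) := ⟨_, rfl⟩
  obtain ⟨EP, hEP⟩ : ∃ E, E = Real.exp (2 * P) := ⟨_, rfl⟩
  rw [← hE, ← hEP]
  have hE0 : 0 ≤ E := hE ▸ (Real.exp_pos _).le
  have hEP1 : 1 ≤ EP := hEP ▸ Real.one_le_exp (by linarith)
  have hEle : E ≤ EP := by
    rw [hE, hEP]
    refine Real.exp_le_exp.2 ?_
    nlinarith [le_abs_self ψv, abs_nonneg ψv]
  have hu2 : u ^ 2 ≤ 121 := by nlinarith [sq_abs u, abs_nonneg u]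
  have hv2 : v ^ 2 ≤ 4 := by nlinarith [sq_abs v, abs_nonneg v]
  have k1 : |E - lam ^ 2 * (u ^ 2 + v ^ 2)| ≤ 126 * EP := by
    have : lam ^ 2 * (u ^ 2 + v ^ 2) ≤ 1 * 125 :=
      mul_le_mul hlam (by linarith) (by positivity) zero_le_one
    have : 0 ≤ lam ^ 2 * (u ^ 2 + v ^ 2) := by positivity
    rw [abs_le]; constructor <;> linarith
  have k2 : |E * (2 * μ * ψ1) - lam ^ 2 * (2 * u * a + 2 * v * b)| ≤ 50 * (P * EP) := by
    have e1 : |2 * μ * ψ1| ≤ 2 * P := by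
      rw [abs_mul, abs_of_nonneg (by linarith : (0:ℝ) ≤ 2 * μ)]
      exact mul_le_mul (by linarith) hψ1 (abs_nonneg _) (by norm_num)
    have e2 : |2 * u * a + 2 * v * b| ≤ 48 := by
      have := abs_add_mul_le hu ha hv hb
      rw [show 2 * u * a + 2 * v * b = 2 * (u * a + v * b) by ring, abs_mul, abs_two]
      linarith
    have e3 : |E| ≤ EP := by rwa [abs_of_nonneg hE0]
    have e4 : |-(lam ^ 2)| ≤ 1 := by rwa [abs_neg, abs_of_nonneg (sq_nonneg lam)]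
    have := abs_add_mul_le e3 e1 e4 e2
    rw [show E * (2 * μ * ψ1) - lam ^ 2 * (2 * u * a + 2 * v * b)
      = E * (2 * μ * ψ1) + -(lam ^ 2) * (2 * u * a + 2 * v * b) by ring]
    nlinarith
  have hPP : P ≤ P ^ 2 := by nlinarith
  have kt : ∀ {l}, |l| ≤ P → |(-t) * l| ≤ t * P := fun hl => by
    rw [abs_mul, abs_neg, abs_of_nonneg ht]; exact mul_le_mul_of_nonneg_left hl ht
  constructor
  · rw [abs_mul]
    refine (mul_le_mul (kt hL) k1 (abs_nonneg _) (by positivity)).trans ?_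
    nlinarith [mul_le_mul_of_nonneg_left hPP (mul_nonneg ht (by linarith : (0:ℝ) ≤ EP)),
      mul_nonneg (mul_nonneg ht (sq_nonneg P)) (by linarith : (0:ℝ) ≤ EP)]
  · refine (abs_add_mul_le (kt hLx) k1 (kt hL) k2).trans ?_
    nlinarith [mul_le_mul_of_nonneg_left hPP (mul_nonneg ht (by linarith : (0:ℝ) ≤ EP)),
      mul_nonneg (mul_nonneg ht (sq_nonneg P)) (by linarith : (0:ℝ) ≤ EP)]

/-- The algebra of the equation and of its `x` derivative at one point. -/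
lemma point_bound {a b c A Bv Q a' b' A' B' Q' c' m : ℝ} (hm : m ≤ 1 / 16)
    (ha : |a - 1| ≤ 1 / 16) (hb : |b| ≤ 1 / 16) (ha' : |a'| ≤ 1) (hb' : |b'| ≤ 1)
    (hA : |A| ≤ m) (hB : |Bv| ≤ m) (hQ : |Q| ≤ m) (hA' : |A'| ≤ m) (hB' : |B'| ≤ m)
    (hQ' : |Q'| ≤ m) (hc : c = A + (Q + (b + Bv) ^ 2) / (a + A))
    (hc' : c' = A' + ((Q' + 2 * (b + Bv) * (b' + B')) * (a + A) -
      (Q + (b + Bv) ^ 2) * (a' + A')) / (a + A) ^ 2) :
    |c| ≤ 20 * (m + |b|) ∧ |c'| ≤ 20 * (m + |b|) := by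
  have hm0 : 0 ≤ m := (abs_nonneg A).trans hA
  have hb0 := abs_nonneg b
  obtain ⟨a1, a2⟩ := abs_le.1 ha
  obtain ⟨A1, A2⟩ := abs_le.1 hA
  have hbB : |b + Bv| ≤ |b| + m := (abs_add_le _ _).trans (by linarith)
  have hN : |Q + (b + Bv) ^ 2| ≤ 2 * m + |b| := by
    refine (abs_add_le _ _).trans ?_
    rw [abs_pow]
    nlinarith [abs_nonneg (b + Bv)]
  have hD : (7 / 8 : ℝ) ≤ a + A := by linarith
  constructor
  · rw [hc]
    refine (abs_add_le _ _).trans ?_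
    rw [abs_div, abs_of_pos (by linarith : 0 < a + A)]
    have : |Q + (b + Bv) ^ 2| / (a + A) ≤ 2 * (2 * m + |b|) := by
      rw [div_le_iff₀ (by linarith)]; nlinarith
    linarith
  · rw [hc']
    refine (abs_add_le _ _).trans ?_
    rw [abs_div, abs_of_pos (by positivity : 0 < (a + A) ^ 2)]
    have h1 : |Q' + 2 * (b + Bv) * (b' + B')| ≤ 6 * m + 5 * |b| := by
      refine (abs_add_le _ _).trans ?_
      have : |2 * (b + Bv) * (b' + B')| ≤ 5 * (|b| + m) := by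
        rw [abs_mul, abs_mul, abs_two]
        have := (abs_add_le b' B')
        nlinarith [abs_nonneg (b + Bv), abs_nonneg (b' + B')]
      linarith
    have h2 : |(Q' + 2 * (b + Bv) * (b' + B')) * (a + A) - (Q + (b + Bv) ^ 2) * (a' + A')|
        ≤ (6 * m + 5 * |b|) * (9 / 8) + (2 * m + |b|) * (9 / 8) := by
      rw [show (Q' + 2 * (b + Bv) * (b' + B')) * (a + A) - (Q + (b + Bv) ^ 2) * (a' + A')
        = (Q' + 2 * (b + Bv) * (b' + B')) * (a + A) + (-(Q + (b + Bv) ^ 2)) * (a' + A') by ring]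
      refine abs_add_mul_le h1 ?_ (by rwa [abs_neg]) ?_
      · rw [abs_of_pos (by linarith)]; linarith
      · exact (abs_add_le _ _).trans (by linarith)
    have : |(Q' + 2 * (b + Bv) * (b' + B')) * (a + A) - (Q + (b + Bv) ^ 2) * (a' + A')|
        / (a + A) ^ 2 ≤ 19 * (m + |b|) := by
      rw [div_le_iff₀ (by positivity)]
      nlinarith [mul_le_mul_of_nonneg_left
        (show (3 / 4 : ℝ) ≤ (a + A) ^ 2 by nlinarith) (show (0:ℝ) ≤ 19 * (m + |b|) by linarith)]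
    linarith

lemma eqn_solve {n : ℕ} {δ t lam η : ℝ} {Z : E2 → ℝ} (h : NSol n δ t lam η Z) {z : E2}
    (hz : z ∈ box 5) (hne : d1 (d1 Z) z +
      cA (psi n δ) (t * lam ^ 2) (d1 Z z) z.2 z.1 (d2 Z z) ≠ 0) :
    d2 (d2 Z) z = cA (psi n δ) (t * lam ^ 2) (d1 Z z) z.2 z.1 (d2 Z z) +
      (cQ (psi n δ) t lam (d1 Z z) z.2 z.1 (d2 Z z) +
        (d2 (d1 Z) z + cB (psi n δ) (t * lam ^ 2) (d1 Z z) z.2 z.1 (d2 Z z)) ^ 2) /
      (d1 (d1 Z) z + cA (psi n δ) (t * lam ^ 2) (d1 Z z) z.2 z.1 (d2 Z z)) := by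
  have e := h.eqn z hz
  simp only [H11, H12, H22] at e
  rw [eq_comm, ← eq_sub_iff_add_eq', div_eq_iff hne]
  simp only [cA, cB, cQ, Prod.mk.eta]
  linarith

lemma coeff_AB {P t μ ψ1 ψ2 u v : ℝ} (hP : 1 ≤ P) (hμ0 : 0 ≤ μ) (hμ : μ ≤ t) (h1 : |ψ1| ≤ P)
    (h2 : |ψ2| ≤ P) (hu : |u| ≤ 11) (hv : |v| ≤ 2) :
    |μ * (-ψ1 * u + ψ2 * v)| ≤ 200 * P ^ 2 * Real.exp (2 * P) * t ∧
    |-μ * (ψ2 * u + ψ1 * v)| ≤ 200 * P ^ 2 * Real.exp (2 * P) * t := by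
  have e1 := abs_add_mul_le (show |-ψ1| ≤ P by rwa [abs_neg]) hu h2 hv
  have e2 := abs_add_mul_le h2 hu h1 hv
  have hbig : P * 11 + P * 2 ≤ 200 * P ^ 2 * Real.exp (2 * P) := by
    have := Real.one_le_exp (show (0:ℝ) ≤ 2 * P by linarith)
    nlinarith [mul_le_mul_of_nonneg_left this (show (0:ℝ) ≤ 200 * P ^ 2 by positivity)]
  constructor <;> rw [abs_mul]
  · rw [abs_of_nonneg hμ0, mul_comm (200 * P ^ 2 * Real.exp (2 * P)) t]
    exact mul_le_mul hμ (e1.trans hbig) (abs_nonneg _) (hμ0.trans hμ)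
  · rw [abs_neg, abs_of_nonneg hμ0, mul_comm (200 * P ^ 2 * Real.exp (2 * P)) t]
    exact mul_le_mul hμ (e2.trans hbig) (abs_nonneg _) (hμ0.trans hμ)

lemma coeff_AB' {P t μ p11 p12 ψ1 ψ2 u v a b : ℝ} (hP : 1 ≤ P) (hμ0 : 0 ≤ μ) (hμ : μ ≤ t)
    (h11 : |p11| ≤ P) (h12 : |p12| ≤ P) (h1 : |ψ1| ≤ P) (h2 : |ψ2| ≤ P) (hu : |u| ≤ 11)
    (hv : |v| ≤ 2) (ha : |a| ≤ 2) (hb : |b| ≤ 1) :
    |μ * (-p11 * u + -ψ1 * a + (p12 * v + ψ2 * b))| ≤ 200 * P ^ 2 * Real.exp (2 * P) * t ∧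
    |-μ * (p12 * u + ψ2 * a + (p11 * v + ψ1 * b))| ≤ 200 * P ^ 2 * Real.exp (2 * P) * t := by
  have e1 := (abs_add_le (-p11 * u + -ψ1 * a) (p12 * v + ψ2 * b)).trans
    (add_le_add (abs_add_mul_le (show |-p11| ≤ P by rwa [abs_neg]) hu
      (show |-ψ1| ≤ P by rwa [abs_neg]) ha) (abs_add_mul_le h12 hv h2 hb))
  have e2 := (abs_add_le (p12 * u + ψ2 * a) (p11 * v + ψ1 * b)).trans
    (add_le_add (abs_add_mul_le h12 hu h2 ha) (abs_add_mul_le h11 hv h1 hb))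
  have hbig : P * 11 + P * 2 + (P * 2 + P * 1) ≤ 200 * P ^ 2 * Real.exp (2 * P) := by
    have := Real.one_le_exp (show (0:ℝ) ≤ 2 * P by linarith)
    nlinarith [mul_le_mul_of_nonneg_left this (show (0:ℝ) ≤ 200 * P ^ 2 by positivity)]
  constructor <;> rw [abs_mul]
  · rw [abs_of_nonneg hμ0, mul_comm (200 * P ^ 2 * Real.exp (2 * P)) t]
    exact mul_le_mul hμ (e1.trans hbig) (abs_nonneg _) (hμ0.trans hμ)
  · rw [abs_neg, abs_of_nonneg hμ0, mul_comm (200 * P ^ 2 * Real.exp (2 * P)) t]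
    exact mul_le_mul hμ (e2.trans hbig) (abs_nonneg _) (hμ0.trans hμ)

/-- On the axis everything is of size `t`. -/
lemma axis_bounds {n : ℕ} (hn : 3 ≤ n) : ∃ K η1 : ℝ, 1 ≤ K ∧ 0 < η1 ∧ η1 ≤ 1 / 16 ∧
    ∀ δ t lam η : ℝ, ∀ Z : E2 → ℝ, 0 < δ → δ ≤ 1 → 0 < t → t ≤ η1 → 0 < lam → lam ≤ η1 →
      η ≤ η1 → NSol n δ t lam η Z →
      (∀ z ∈ box 5, d1 (d1 Z) z +
        cA (psi n δ) (t * lam ^ 2) (d1 Z z) z.2 z.1 (d2 Z z) ≠ 0) ∧
      ∀ y : ℝ, |y| < 5 → |d1 Z (0, y)| ≤ K * t ∧ |d2 Z (0, y)| ≤ K * t := by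
  obtain ⟨P, hP, hψb⟩ := psi_deriv_bounds hn
  obtain ⟨M, hM⟩ : ∃ M, M = 200 * P ^ 2 * Real.exp (2 * P) := ⟨_, rfl⟩
  have hM1 : 1 ≤ M := by
    rw [hM]
    nlinarith [Real.one_le_exp (show (0:ℝ) ≤ 2 * P by linarith),
      mul_le_mul_of_nonneg_left (Real.one_le_exp (show (0:ℝ) ≤ 2 * P by linarith))
        (show (0:ℝ) ≤ 200 * P ^ 2 by positivity)]
  obtain ⟨G, hG⟩ : ∃ G, G = M * Real.exp 100 := ⟨_, rfl⟩
  have hG1 : 1 ≤ G := by
    rw [hG]; exact one_le_mul_of_one_le_of_one_le hM1 (Real.one_le_exp (by norm_num))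
  refine ⟨100 * (M + G), 1 / (16 * M), by linarith, by positivity, ?_, ?_⟩
  · rw [div_le_div_iff₀ (by positivity) (by norm_num)]; linarith
  intro δ t lam η Z hδ hδ1 ht htη hlam hlamη hη h
  have hη1 : (1 : ℝ) / (16 * M) ≤ 1 / 16 := by
    rw [div_le_div_iff₀ (by positivity) (by norm_num)]; linarith
  have hη16 : η ≤ 1 / 16 := hη.trans hη1
  have hlam2 : lam ^ 2 ≤ 1 := pow_le_one₀ hlam.le (by linarith)
  have hμt : t * lam ^ 2 ≤ t := by simpa using mul_le_mul_of_nonneg_left hlam2 ht.le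
  have hμ0 : 0 ≤ t * lam ^ 2 := by positivity
  have hMt : M * t ≤ 1 / 16 := by
    calc M * t ≤ M * (1 / (16 * M)) := mul_le_mul_of_nonneg_left htη (by linarith)
      _ = 1 / 16 := by field_simp
  have hZ := h.smooth
  have hψ := contDiff_psi n δ
  have dd : ∀ {g : E2 → ℝ}, ContDiff ℝ ∞ g → Differentiable ℝ g :=
    fun hg => hg.differentiable (by simp)
  have ha2 : ∀ z, |d1 (d1 Z) z| ≤ 2 := fun z => by
    have := abs_le.1 (h.near11 z); rw [abs_le]; constructor <;> linarith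
  have hb1 : ∀ z, |d1 (d2 Z) z| ≤ η := fun z => by rw [← d2_d1_comm hZ]; exact h.near12 z
  have hu : ∀ z ∈ box 5, |d1 Z z| ≤ 11 := fun z hz => by
    have := abs_le_of_grad (dd (contDiff_d1 hZ)) ha2 h.near12 h.grad1 z
    have := mul_le_mul hη16 hz.2.le (abs_nonneg _) (by norm_num)
    linarith [hz.1]
  have hv : ∀ z ∈ box 5, |d2 Z z| ≤ 2 := fun z hz => by
    have := abs_le_of_grad (dd (contDiff_d2 hZ)) hb1 h.near22 h.grad2 z
    have := mul_le_mul hη16 hz.1.le (abs_nonneg _) (by norm_num)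
    have := mul_le_mul hη16 hz.2.le (abs_nonneg _) (by norm_num)
    linarith
  have hAB : ∀ z ∈ box 5, |cA (psi n δ) (t * lam ^ 2) (d1 Z z) z.2 z.1 (d2 Z z)| ≤ M * t ∧
      |cB (psi n δ) (t * lam ^ 2) (d1 Z z) z.2 z.1 (d2 Z z)| ≤ M * t := fun z hz => by
    obtain ⟨-, p1, p2, -⟩ := hψb δ hδ hδ1 z
    rw [hM]; exact coeff_AB hP hμ0 hμt p1 p2 (hu z hz) (hv z hz)
  have hne : ∀ z ∈ box 5, d1 (d1 Z) z +
      cA (psi n δ) (t * lam ^ 2) (d1 Z z) z.2 z.1 (d2 Z z) ≠ 0 := fun z hz => by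
    have := (abs_le.1 (h.near11 z)).1
    have := (abs_le.1 (hAB z hz).1).1
    linarith
  refine ⟨hne, ?_⟩
  have hax : ∀ y : ℝ, |y| < 5 → |d2 (d2 Z) (0, y)| ≤ 20 * (M * t + |d2 (d1 Z) (0, y)|) ∧
      |d2 (d2 (d1 Z)) (0, y)| ≤ 20 * (M * t + |d2 (d1 Z) (0, y)|) := by
    intro y hy
    have hz : ((0 : ℝ), y) ∈ box 5 := ⟨by simp, hy⟩
    obtain ⟨p0, p1, p2, p11, p12, pl, pl1⟩ := hψb δ hδ hδ1 (0, y)
    have D : ∀ {g : E2 → ℝ}, ContDiff ℝ ∞ g →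
        HasDerivAt (fun s => g (s, y)) (d1 g (0, y)) 0 := fun hg => d1_hasDerivAt (dd hg) 0 y
    have dψ1 := D (contDiff_d1 hψ)
    have dψ2 := D (contDiff_d2 hψ)
    have du := D (contDiff_d1 hZ)
    have dv := D (contDiff_d2 hZ)
    have dA : HasDerivAt (fun s => cA (psi n δ) (t * lam ^ 2) (d1 Z (s, y)) y s (d2 Z (s, y)))
        _ 0 := ((dψ1.fun_neg.mul du).add (dψ2.mul dv)).const_mul (t * lam ^ 2)
    have dB : HasDerivAt (fun s => cB (psi n δ) (t * lam ^ 2) (d1 Z (s, y)) y s (d2 Z (s, y)))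
        _ 0 := ((dψ2.mul du).add (dψ1.mul dv)).const_mul (-(t * lam ^ 2))
    have dQ : HasDerivAt (fun s => cQ (psi n δ) t lam (d1 Z (s, y)) y s (d2 Z (s, y))) _ 0 :=
      ((D (contDiff_lap hψ)).const_mul (-t)).mul ((((D hψ).const_mul (2 * (t * lam ^ 2))).exp).sub
        (((du.fun_pow 2).add (dv.fun_pow 2)).const_mul (lam ^ 2)))
    have dS := ((D (contDiff_d2 (contDiff_d1 hZ))).add dB).fun_pow 2
    have dR : HasDerivAt (fun s => cA (psi n δ) (t * lam ^ 2) (d1 Z (s, y)) y s (d2 Z (s, y)) +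
      (cQ (psi n δ) t lam (d1 Z (s, y)) y s (d2 Z (s, y)) +
        (d2 (d1 Z) (s, y) + cB (psi n δ) (t * lam ^ 2) (d1 Z (s, y)) y s (d2 Z (s, y))) ^ 2) /
      (d1 (d1 Z) (s, y) + cA (psi n δ) (t * lam ^ 2) (d1 Z (s, y)) y s (d2 Z (s, y)))) _ 0 :=
      dA.add ((dQ.add dS).div ((D (contDiff_d1 (contDiff_d1 hZ))).add dA) (hne _ hz))
    have hev : ∀ᶠ s in 𝓝 (0 : ℝ), ((s, y) : E2) ∈ box 5 :=
      ((continuous_id.prodMk continuous_const).tendsto 0).eventually ((isOpen_box 5).mem_nhds hz)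
    have key := (D (contDiff_d2 (contDiff_d2 hZ))).unique (dR.congr_of_eventuallyEq
      (hev.mono fun s hs => eqn_solve h hs (hne _ hs)))
    have hQ := Q_bounds (t := t) (μ := t * lam ^ 2) (lam := lam) (L := lap (psi n δ) (0, y))
      (Lx := d1 (lap (psi n δ)) (0, y)) (ψv := psi n δ (0, y)) (ψ1 := d1 (psi n δ) (0, y))
      (u := d1 Z (0, y)) (v := d2 Z (0, y)) (a := d1 (d1 Z) (0, y)) (b := d1 (d2 Z) (0, y))
      hP ht.le hμ0 (by linarith) hlam2 pl pl1 p0 p1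
      (hu _ hz) (hv _ hz) (ha2 _) ((hb1 _).trans (by linarith))
    have hA' := coeff_AB' (t := t) (μ := t * lam ^ 2) (p11 := d1 (d1 (psi n δ)) (0, y))
      (p12 := d1 (d2 (psi n δ)) (0, y)) (ψ1 := d1 (psi n δ) (0, y))
      (ψ2 := d2 (psi n δ) (0, y)) (u := d1 Z (0, y)) (v := d2 Z (0, y))
      (a := d1 (d1 Z) (0, y)) (b := d1 (d2 Z) (0, y))
      hP hμ0 hμt p11 p12 p1 p2 (hu _ hz) (hv _ hz) (ha2 _) ((hb1 _).trans (by linarith))
    rw [← hM] at hQ hA'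
    have h3 : ∀ w, ‖iteratedFDeriv ℝ 3 Z w‖ ≤ 1 :=
      fun w => (h.high 3 le_rfl (by norm_num) w).trans (by linarith)
    have hcomm : d2 (d2 (d1 Z)) (0, y) = d1 (d2 (d2 Z)) (0, y) := by
      rw [show d2 (d1 Z) = d1 (d2 Z) from funext (d2_d1_comm hZ),
        d2_d1_comm (contDiff_d2 hZ)]
    have pb := point_bound (m := M * t) (a := d1 (d1 Z) (0, y)) (b := d2 (d1 Z) (0, y))
      (a' := d1 (d1 (d1 Z)) (0, y)) (b' := d1 (d2 (d1 Z)) (0, y))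
      (A := cA (psi n δ) (t * lam ^ 2) (d1 Z (0, y)) y 0 (d2 Z (0, y)))
      (Bv := cB (psi n δ) (t * lam ^ 2) (d1 Z (0, y)) y 0 (d2 Z (0, y)))
      (Q := cQ (psi n δ) t lam (d1 Z (0, y)) y 0 (d2 Z (0, y)))
      hMt ((h.near11 _).trans hη16) ((h.near12 _).trans hη16)
      (((abs_d1_le _ _).trans ((norm_iter_d1_le (contDiff_d1 hZ) 1 _).trans
        (norm_iter_d1_le hZ 2 _))).trans (h3 _))
      (((abs_d1_le _ _).trans ((norm_iter_d2_le (contDiff_d1 hZ) 1 _).trans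
        (norm_iter_d1_le hZ 2 _))).trans (h3 _))
      (hAB _ hz).1 (hAB _ hz).2 (by
        refine le_trans (le_of_eq ?_) hQ.1
        simp only [cQ])
      hA'.1 hA'.2 hQ.2 (eqn_solve h hz (hne _ hz)) (c' := d2 (d2 (d1 Z)) (0, y)) (by
        rw [hcomm, key]
        norm_num [cA, cB, cQ])
    exact pb
  have hgd : ∀ s, HasDerivAt (fun s => d2 (d1 Z) (0, s)) (d2 (d2 (d1 Z)) (0, s)) s :=
    fun s => d2_hasDerivAt (dd (contDiff_d2 (contDiff_d1 hZ))) 0 s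
  have hgr : ∀ y : ℝ, |y| < 5 → |d2 (d1 Z) (0, y)| ≤ G * t := by
    have main : ∀ (σ : ℝ), |σ| = 1 → ∀ x : ℝ, 0 ≤ x → x < 5 →
        |d2 (d1 Z) (0, σ * x)| ≤ G * t := by
      intro σ hσ x hx hx5
      have hd : ∀ s, HasDerivAt (fun s => d2 (d1 Z) (0, σ * s))
          (d2 (d2 (d1 Z)) (0, σ * s) * σ) s := fun s => by
        have h1 : HasDerivAt (fun r : ℝ => σ * r) σ s := by
          simpa using (hasDerivAt_id s).const_mul σ
        exact (hgd (σ * s)).comp s h1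
      have hmem : ∀ s, 0 ≤ s → s ≤ x → |σ * s| < 5 := fun s h0 h1 => by
        rw [abs_mul, hσ, one_mul, abs_of_nonneg h0]; linarith
      have g := norm_le_gronwallBound_of_norm_deriv_right_le (δ := 0) (K := 20)
        (ε := 20 * (M * t)) (a := 0) (b := x)
        (continuous_iff_continuousAt.2 fun s => (hd s).continuousAt).continuousOn
        (fun s _ => (hd s).hasDerivWithinAt)
        (by simp only [mul_zero]; rw [show ((0 : ℝ), (0 : ℝ)) = (0 : E2) from rfl, h.mixed0]; simp)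
        (fun s hs => by
          simp only [Real.norm_eq_abs, abs_mul, hσ, mul_one]
          have := (hax _ (hmem s hs.1 hs.2.le)).2
          linarith) x ⟨hx, le_rfl⟩
      rw [gronwallBound_of_K_ne_0 (by norm_num : (20 : ℝ) ≠ 0), Real.norm_eq_abs] at g
      refine g.trans ?_
      rw [hG]
      have : Real.exp (20 * (x - 0)) ≤ Real.exp 100 := Real.exp_le_exp.2 (by linarith)
      have : 0 < M * t := by positivity
      nlinarith
    intro y hy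
    rcases le_total 0 y with h0 | h0
    · simpa using main 1 abs_one y h0 (by rwa [abs_of_nonneg h0] at hy)
    · simpa using main (-1) (by simp) (-y) (by linarith) (by rwa [abs_of_nonpos h0] at hy)
  intro y hy
  have hin : ∀ s ∈ uIcc (0 : ℝ) y, |s| < 5 := fun s hs => by
    have := abs_sub_left_of_mem_uIcc hs
    simp only [sub_zero] at this
    linarith
  constructor
  · have e := mvt_abs (h := fun s => d1 Z (0, s)) (h' := fun s => d2 (d1 Z) (0, s))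
      (L := G * t) (a := 0) (b := y) (fun s _ => d2_hasDerivAt (dd (contDiff_d1 hZ)) 0 s)
      fun s hs => hgr s (hin s hs)
    simp only [show ((0 : ℝ), (0 : ℝ)) = (0 : E2) from rfl, h.grad1, sub_zero] at e
    have := mul_le_mul_of_nonneg_left hy.le (show 0 ≤ G * t by positivity)
    nlinarith
  · have e := mvt_abs (h := fun s => d2 Z (0, s)) (h' := fun s => d2 (d2 Z) (0, s))
      (L := 20 * (M * t + G * t)) (a := 0) (b := y)
      (fun s _ => d2_hasDerivAt (dd (contDiff_d2 hZ)) 0 s) fun s hs => by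
        have := hgr s (hin s hs)
        have := (hax s (hin s hs)).1
        linarith
    simp only [show ((0 : ℝ), (0 : ℝ)) = (0 : E2) from rfl, h.grad2, sub_zero] at e
    have := mul_le_mul_of_nonneg_left hy.le (show 0 ≤ 20 * (M * t + G * t) by positivity)
    linarith

end Vale.Agent.P229
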