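import Vale.Agent.P229.Hodo.Small

/-!
P229, hodograph: the map `(x, y) ↦ (Z_x, y)` is a diffeomorphism of the plane; derivatives of its
inverse and of `Z_y` in the new coordinates.
-/

namespace Vale.Agent.P229

open Real Set Filter
open scoped ContDiff Topology

/-- The second derivatives, shifted to be small. -/
noncomputable def jetF (Z : E2 → ℝ) (w : E2) : ℝ × ℝ × ℝ :=
  (d1 (d1 Z) w - 1, d2 (d1 Z) w, d2 (d2 Z) w)

/-- Derivative of `X` minus the first projection, as a function of the shifted jet. -/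
noncomputable def phiX (u : ℝ × ℝ × ℝ) : E2 →L[ℝ] ℝ :=
  ((1 + u.1)⁻¹ - 1) • ContinuousLinearMap.fst ℝ ℝ ℝ +
    (-(u.2.1 * (1 + u.1)⁻¹)) • ContinuousLinearMap.snd ℝ ℝ ℝ

/-- Derivative of `q`, as a function of the shifted jet. -/
noncomputable def phiQ (u : ℝ × ℝ × ℝ) : E2 →L[ℝ] ℝ :=
  (u.2.1 * (1 + u.1)⁻¹) • ContinuousLinearMap.fst ℝ ℝ ℝ +
    (u.2.2 - u.2.1 * u.2.1 * (1 + u.1)⁻¹) • ContinuousLinearMap.snd ℝ ℝ ℝ

lemma phiX_apply (u : ℝ × ℝ × ℝ) (v : E2) :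
    phiX u v = ((1 + u.1)⁻¹ - 1) * v.1 + (-(u.2.1 * (1 + u.1)⁻¹)) * v.2 := by simp [phiX]

lemma phiQ_apply (u : ℝ × ℝ × ℝ) (v : E2) :
    phiQ u v = u.2.1 * (1 + u.1)⁻¹ * v.1 + (u.2.2 - u.2.1 * u.2.1 * (1 + u.1)⁻¹) * v.2 := by
  simp [phiQ]

lemma phiX_zero : phiX 0 = 0 := by simp [phiX]

lemma phiQ_zero : phiQ 0 = 0 := by simp [phiQ]

/-- Where the denominator does not vanish. -/
def jetDom : Set (ℝ × ℝ × ℝ) := {u | -(1 / 2 : ℝ) < u.1}

lemma isOpen_jetDom : IsOpen jetDom := isOpen_lt continuous_const continuous_fst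

lemma zero_mem_jetDom : (0 : ℝ × ℝ × ℝ) ∈ jetDom := by simp [jetDom]

lemma contDiffOn_phiX : ContDiffOn ℝ ∞ phiX jetDom := by
  have hi : ContDiffOn ℝ ∞ (fun u : ℝ × ℝ × ℝ => (1 + u.1)⁻¹) jetDom :=
    (contDiff_const.add contDiff_fst).contDiffOn.inv fun u hu => by
      have : -(1 / 2 : ℝ) < u.1 := hu
      linarith
  unfold phiX
  exact ((hi.sub contDiffOn_const).smul contDiffOn_const).add
    (((contDiff_fst.comp contDiff_snd).contDiffOn.mul hi).neg.smul contDiffOn_const)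

lemma contDiffOn_phiQ : ContDiffOn ℝ ∞ phiQ jetDom := by
  have hi : ContDiffOn ℝ ∞ (fun u : ℝ × ℝ × ℝ => (1 + u.1)⁻¹) jetDom :=
    (contDiff_const.add contDiff_fst).contDiffOn.inv fun u hu => by
      have : -(1 / 2 : ℝ) < u.1 := hu
      linarith
  unfold phiQ
  exact (((contDiff_fst.comp contDiff_snd).contDiffOn.mul hi).smul contDiffOn_const).add
    (((contDiff_snd.comp contDiff_snd).contDiffOn.sub
      (((contDiff_fst.comp contDiff_snd).contDiffOn.mul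
        (contDiff_fst.comp contDiff_snd).contDiffOn).mul hi)).smul contDiffOn_const)

lemma contDiff_jetF {Z : E2 → ℝ} (hZ : ContDiff ℝ ∞ Z) : ContDiff ℝ ∞ (jetF Z) :=
  ((contDiff_d1 (contDiff_d1 hZ)).sub contDiff_const).prodMk
    ((contDiff_d2 (contDiff_d1 hZ)).prodMk (contDiff_d2 (contDiff_d2 hZ)))

lemma norm_iter_jetF_le {Z : E2 → ℝ} (hZ : ContDiff ℝ ∞ Z) {η : ℝ}
    (h11 : ∀ z, |d1 (d1 Z) z - 1| ≤ η) (h12 : ∀ z, |d2 (d1 Z) z| ≤ η)
    (h22 : ∀ z, |d2 (d2 Z) z| ≤ η)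
    (hh : ∀ k : ℕ, 3 ≤ k → k ≤ 6 → ∀ z, ‖iteratedFDeriv ℝ k Z z‖ ≤ η)
    {i : ℕ} (hi : i ≤ 4) (z : E2) : ‖iteratedFDeriv ℝ i (jetF Z) z‖ ≤ η := by
  rcases Nat.eq_zero_or_pos i with rfl | hp
  · rw [norm_iteratedFDeriv_zero]
    simp only [jetF, Prod.norm_def, Real.norm_eq_abs]
    exact max_le (h11 z) (max_le (h12 z) (h22 z))
  · have ha := contDiff_d1 (contDiff_d1 hZ)
    have hb := contDiff_d2 (contDiff_d1 hZ)
    have hc := contDiff_d2 (contDiff_d2 hZ)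
    have hk : ‖iteratedFDeriv ℝ (i + 1 + 1) Z z‖ ≤ η := hh _ (by omega) (by omega) z
    unfold jetF
    rw [iteratedFDeriv_prodMk ((ha.sub contDiff_const).of_le (nat_le_infty i)).contDiffAt
      ((hb.prodMk hc).of_le (nat_le_infty i)).contDiffAt le_rfl,
      ContinuousMultilinearMap.opNorm_prod,
      iteratedFDeriv_prodMk (hb.of_le (nat_le_infty i)).contDiffAt
        (hc.of_le (nat_le_infty i)).contDiffAt le_rfl,
      ContinuousMultilinearMap.opNorm_prod, norm_add_const_iter ha 1 hp.ne']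
    refine max_le ?_ (max_le ?_ ?_) <;> refine le_trans ?_ hk
    · exact (norm_iter_d1_le (contDiff_d1 hZ) i z).trans (norm_iter_d1_le hZ (i + 1) z)
    · exact (norm_iter_d2_le (contDiff_d1 hZ) i z).trans (norm_iter_d1_le hZ (i + 1) z)
    · exact (norm_iter_d2_le (contDiff_d2 hZ) i z).trans (norm_iter_d2_le hZ (i + 1) z)

lemma fderiv_eq_coord {f : E2 → ℝ} (z : E2) :
    fderiv ℝ f z = d1 f z • ContinuousLinearMap.fst ℝ ℝ ℝ +
      d2 f z • ContinuousLinearMap.snd ℝ ℝ ℝ := by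
  ext <;> simp [d1, d2]

/-- The hodograph map and the two new unknowns. -/
lemma exists_inverse {Z : E2 → ℝ} (hZ : ContDiff ℝ ∞ Z) {η : ℝ} (hη : η ≤ 1 / 8)
    (h11 : ∀ z, |d1 (d1 Z) z - 1| ≤ η) (h12 : ∀ z, |d2 (d1 Z) z| ≤ η)
    (h0 : d1 Z 0 = 0) :
    ∃ X q : E2 → ℝ, ContDiff ℝ ∞ X ∧ ContDiff ℝ ∞ q ∧
      (∀ z, d1 Z (X z, z.2) = z.1) ∧ (∀ z, q z = d2 Z (X z, z.2)) ∧
      (∀ z, fderiv ℝ X z =
        ContinuousLinearMap.fst ℝ ℝ ℝ + phiX (jetF Z (X z, z.2))) ∧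
      (∀ z, fderiv ℝ q z = phiQ (jetF Z (X z, z.2))) ∧
      (∀ z, ‖((X z, z.2) : E2) - z‖ ≤ 2 * η * ‖((X z, z.2) : E2)‖) := by
  have hη0 : 0 ≤ η := (abs_nonneg _).trans (h12 0)
  have hd1 := contDiff_d1 hZ
  let J : E2 → E2 →L[ℝ] E2 := fun w =>
    (fderiv ℝ (d1 Z) w).prod (ContinuousLinearMap.snd ℝ ℝ ℝ)
  let f : E2 → E2 := fun w => (d1 Z w, w.2)
  have hf : ContDiff ℝ ∞ f := hd1.prodMk contDiff_snd
  have hfd : ∀ w, HasFDerivAt f (J w) w := fun w =>
    ((hd1.differentiable (by simp)) w).hasFDerivAt.prodMk hasFDerivAt_snd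
  have hJ : ∀ w, ‖J w - ((ContinuousLinearEquiv.refl ℝ E2) : E2 →L[ℝ] E2)‖ ≤ 2 * η := by
    intro w
    refine ContinuousLinearMap.opNorm_le_bound _ (by linarith) fun v => ?_
    have e : (J w - ((ContinuousLinearEquiv.refl ℝ E2) : E2 →L[ℝ] E2)) v
        = ((d1 (d1 Z) w - 1) * v.1 + d2 (d1 Z) w * v.2, 0) := by
      simp [J, fderiv_eq_coord (f := d1 Z) w]
      ext <;> simp <;> ring
    rw [e, Prod.norm_def]
    simp only [norm_zero, Real.norm_eq_abs]
    refine max_le ?_ (by positivity)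
    calc |(d1 (d1 Z) w - 1) * v.1 + d2 (d1 Z) w * v.2|
        ≤ |d1 (d1 Z) w - 1| * |v.1| + |d2 (d1 Z) w| * |v.2| := by
          rw [← abs_mul, ← abs_mul]; exact abs_add_le _ _
      _ ≤ η * ‖v‖ + η * ‖v‖ := add_le_add
          (mul_le_mul (h11 w) (norm_fst_le v) (abs_nonneg _) hη0)
          (mul_le_mul (h12 w) (norm_snd_le v) (abs_nonneg _) hη0)
      _ = 2 * η * ‖v‖ := by ring
  have hlip : ∀ x y, ‖f x - f y - (x - y)‖ ≤ 2 * η * ‖x - y‖ := fun x y => by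
    simpa using convex_univ.norm_image_sub_le_of_norm_hasFDerivWithin_le'
      (φ := ((ContinuousLinearEquiv.refl ℝ E2) : E2 →L[ℝ] E2))
      (fun w _ => (hfd w).hasFDerivWithinAt) (fun w _ => hJ w) (mem_univ y) (mem_univ x)
  have happ : ApproximatesLinearOn f ((ContinuousLinearEquiv.refl ℝ E2) : E2 →L[ℝ] E2) univ
      (1 / 2 : NNReal) := by
    intro x _ y _
    refine le_trans (by simpa using hlip x y) ?_
    have : 2 * η ≤ ((1 / 2 : NNReal) : ℝ) := by push_cast; linarith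
    exact mul_le_mul_of_nonneg_right this (norm_nonneg _)
  have hN : ‖((ContinuousLinearEquiv.refl ℝ E2).symm : E2 →L[ℝ] E2)‖₊ ≤ 1 := by
    rw [← NNReal.coe_le_coe]; exact ContinuousLinearMap.norm_id_le
  have hNpos : 0 < ‖((ContinuousLinearEquiv.refl ℝ E2).symm : E2 →L[ℝ] E2)‖₊ :=
    (ContinuousLinearEquiv.refl ℝ E2).subsingleton_or_nnnorm_symm_pos.resolve_left
      (not_subsingleton E2)
  let e : E2 ≃ₜ E2 := happ.toHomeomorph f (Or.inr (lt_of_lt_of_le (by norm_num)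
    (one_le_inv₀ hNpos |>.2 hN)))
  have he : ∀ w, e w = f w := fun w => rfl
  have ha : ∀ w, (1 : ℝ) + (jetF Z w).1 = d1 (d1 Z) w := fun w => by simp [jetF]
  have hane : ∀ w, d1 (d1 Z) w ≠ 0 := fun w => by
    have := abs_le.1 (h11 w)
    linarith
  let K : E2 → E2 →L[ℝ] E2 := fun w =>
    (ContinuousLinearMap.fst ℝ ℝ ℝ + phiX (jetF Z w)).prod (ContinuousLinearMap.snd ℝ ℝ ℝ)
  have hKJ : ∀ w, Function.LeftInverse (K w) (J w) := fun w v => by
    have := hane w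
    simp [J, K, phiX_apply, ha, fderiv_eq_coord (f := d1 Z) w, Prod.ext_iff]
    simp [jetF]
    field_simp
    ring
  have hJK : ∀ w, Function.RightInverse (K w) (J w) := fun w v => by
    have := hane w
    simp [J, K, phiX_apply, ha, fderiv_eq_coord (f := d1 Z) w, Prod.ext_iff]
    simp [jetF]
    field_simp
    ring
  have hinv : ContDiff ℝ ∞ e.symm := e.contDiff_symm
    (f₀' := fun w => ContinuousLinearEquiv.equivOfInverse (J w) (K w) (hKJ w) (hJK w))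
    (fun w => hfd w) hf
  let X : E2 → ℝ := fun z => (e.symm z).1
  have hX : ContDiff ℝ ∞ X := contDiff_fst.comp hinv
  have hsnd : ∀ z, (e.symm z).2 = z.2 := fun z => by
    show (f (e.symm z)).2 = z.2
    rw [← he, e.apply_symm_apply]
  have hΨ : ∀ z, ((X z, z.2) : E2) = e.symm z := fun z => Prod.ext rfl (hsnd z).symm
  have hroot : ∀ z, d1 Z (X z, z.2) = z.1 := fun z => by
    rw [hΨ]
    show (f (e.symm z)).1 = z.1
    rw [← he, e.apply_symm_apply]
  have hDΨ : ∀ z, HasFDerivAt (fun w : E2 => ((X w, w.2) : E2)) (K (X z, z.2)) z := fun z => by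
    have h := (e.toOpenPartialHomeomorph).hasFDerivAt_symm (a := z) (mem_univ _)
      (f' := ContinuousLinearEquiv.equivOfInverse (J (X z, z.2)) (K (X z, z.2))
        (hKJ _) (hJK _))
      (by rw [show e.toOpenPartialHomeomorph.symm z = (X z, z.2) from (hΨ z).symm]; exact hfd _)
    rw [show (fun w : E2 => ((X w, w.2) : E2)) = e.symm from funext hΨ]
    exact h
  refine ⟨X, fun z => d2 Z (X z, z.2), hX,
    (contDiff_d2 hZ).comp (hX.prodMk contDiff_snd), hroot, fun z => rfl, fun z => ?_,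
    fun z => ?_, fun z => ?_⟩
  · have h := ((hasFDerivAt_fst (𝕜 := ℝ) (p := ((X z, z.2) : E2))).comp z (hDΨ z)).fderiv
    exact h.trans (by ext <;> simp [K])
  · have h2 : Differentiable ℝ (d2 Z) := (contDiff_d2 hZ).differentiable (by simp)
    refine ((h2 _).hasFDerivAt.comp z (hDΨ z)).fderiv.trans ?_
    refine ContinuousLinearMap.ext fun v => ?_
    simp [K, phiX_apply, phiQ_apply, ha, fderiv_eq_coord (f := d2 Z) (X z, z.2)]
    simp [jetF, d2_d1_comm hZ]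
    have := hane (X z, z.2)
    field_simp
    ring
  · have hf0 : f 0 = 0 := Prod.ext h0 rfl
    have h := hlip (X z, z.2) 0
    rw [hf0, sub_zero, sub_zero, show f (X z, z.2) = z from by
      rw [hΨ]; exact e.apply_symm_apply z, norm_sub_rev] at h
    exact h

end Vale.Agent.P229
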