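import Vale.Agent.P229.Psi
import Vale.Agent.P229.LeftAux

/-!
P229, hodograph: smallness of derivatives under composition.
-/

namespace Vale.Agent.P229

open Real Set Filter
open scoped ContDiff Topology

variable {F H : Type} [NormedAddCommGroup F] [NormedSpace ℝ F] [NormedAddCommGroup H]
  [NormedSpace ℝ H]

lemma norm_e1 : ‖((1, 0) : E2)‖ = 1 := by simp [Prod.norm_def]

lemma norm_e2 : ‖((0, 1) : E2)‖ = 1 := by simp [Prod.norm_def]

lemma nat_le_infty (k : ℕ) : (k : ℕ∞ω) ≤ (∞ : ℕ∞ω) := by exact_mod_cast le_top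

lemma norm_iter_d1_le {f : E2 → F} (hf : ContDiff ℝ ∞ f) (k : ℕ) (z : E2) :
    ‖iteratedFDeriv ℝ k (d1 f) z‖ ≤ ‖iteratedFDeriv ℝ (k + 1) f z‖ := by
  have h := norm_iteratedFDeriv_clm_apply_const (c := ((1, 0) : E2)) (n := k) (x := z)
    (hf.fderiv_right (m := ∞) (by simp)).contDiffAt (nat_le_infty k)
  rw [norm_e1, one_mul, norm_iteratedFDeriv_fderiv] at h
  exact h

lemma norm_iter_d2_le {f : E2 → F} (hf : ContDiff ℝ ∞ f) (k : ℕ) (z : E2) :
    ‖iteratedFDeriv ℝ k (d2 f) z‖ ≤ ‖iteratedFDeriv ℝ (k + 1) f z‖ := by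
  have h := norm_iteratedFDeriv_clm_apply_const (c := ((0, 1) : E2)) (n := k) (x := z)
    (hf.fderiv_right (m := ∞) (by simp)).contDiffAt (nat_le_infty k)
  rw [norm_e2, one_mul, norm_iteratedFDeriv_fderiv] at h
  exact h

lemma abs_d1_le (f : E2 → ℝ) (z : E2) : |d1 f z| ≤ ‖iteratedFDeriv ℝ 1 f z‖ := by
  rw [norm_iteratedFDeriv_one, ← Real.norm_eq_abs]
  have h := (fderiv ℝ f z).le_opNorm (1, 0)
  rwa [norm_e1, mul_one] at h

lemma abs_d2_le (f : E2 → ℝ) (z : E2) : |d2 f z| ≤ ‖iteratedFDeriv ℝ 1 f z‖ := by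
  rw [norm_iteratedFDeriv_one, ← Real.norm_eq_abs]
  have h := (fderiv ℝ f z).le_opNorm (0, 1)
  rwa [norm_e2, mul_one] at h

lemma norm_add_const_iter {f : E2 → F} (hf : ContDiff ℝ ∞ f) (c : F) {k : ℕ} (hk : k ≠ 0)
    (z : E2) : iteratedFDeriv ℝ k (fun w => f w - c) z = iteratedFDeriv ℝ k f z := by
  have e : (fun w => f w - c) = f + fun _ : E2 => -c := by funext w; simp [sub_eq_add_neg]
  rw [e, iteratedFDeriv_add_apply (hf.of_le (nat_le_infty k)).contDiffAt contDiffAt_const,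
    iteratedFDeriv_const_of_ne hk]
  simp

/-- Compositions of small maps with a fixed smooth map vanishing at zero are small. -/
lemma small_comp {Φ : F → H} {T : Set F} (hT : IsOpen T) (h0 : (0 : F) ∈ T)
    (hΦ : ContDiffOn ℝ ∞ Φ T) (hΦ0 : Φ 0 = 0) {k : ℕ} {ε : ℝ} (hε : 0 < ε) :
    ∃ η : ℝ, 0 < η ∧ ∀ f : E2 → F, ContDiff ℝ ∞ f →
      (∀ i ≤ k, ∀ z, ‖iteratedFDeriv ℝ i f z‖ ≤ η) →
      ∀ i ≤ k, ∀ z, ‖iteratedFDeriv ℝ i (fun w => Φ (f w)) z‖ ≤ ε := by
  have hsum : ∀ᶠ y in 𝓝 (0 : F),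
      ∑ i ∈ Finset.range (k + 1), ‖iteratedFDerivWithin ℝ i Φ T y‖
        < (∑ i ∈ Finset.range (k + 1), ‖iteratedFDerivWithin ℝ i Φ T 0‖) + 1 := by
    have hc : ContinuousAt (fun y => ∑ i ∈ Finset.range (k + 1),
        ‖iteratedFDerivWithin ℝ i Φ T y‖) 0 :=
      tendsto_finsetSum _ fun i _ => ((hΦ.continuousOn_iteratedFDerivWithin (nat_le_infty i)
        hT.uniqueDiffOn).continuousAt (hT.mem_nhds h0)).norm
    exact hc.eventually (eventually_lt_nhds (lt_add_one _))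
  have hsmall : ∀ᶠ y in 𝓝 (0 : F), ‖Φ y‖ < ε := by
    have hc := ((hΦ.continuousOn.continuousAt (hT.mem_nhds h0)).norm)
    rw [ContinuousAt, hΦ0, norm_zero] at hc
    exact hc.eventually (eventually_lt_nhds hε)
  have hboth := hsum.and (hsmall.and (hT.mem_nhds h0))
  obtain ⟨r, hr, hball⟩ := Metric.eventually_nhds_iff.1 hboth
  set C := (∑ i ∈ Finset.range (k + 1), ‖iteratedFDerivWithin ℝ i Φ T 0‖) + 1 with hCdef
  have hC : 0 < C := by positivity
  obtain ⟨D, hD0, hD1, hDε⟩ :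
      ∃ D : ℝ, 0 < D ∧ D ≤ 1 ∧ (k.factorial : ℝ) * C * D ≤ ε := by
    have hK : (0 : ℝ) < k.factorial * C := mul_pos (by exact_mod_cast k.factorial_pos) hC
    refine ⟨min 1 (ε / (k.factorial * C)), lt_min one_pos (div_pos hε hK), min_le_left _ _, ?_⟩
    calc (k.factorial : ℝ) * C * min 1 (ε / (k.factorial * C))
        ≤ k.factorial * C * (ε / (k.factorial * C)) :=
          mul_le_mul_of_nonneg_left (min_le_right _ _) hK.le
      _ = ε := mul_div_cancel₀ ε hK.ne'
  refine ⟨min (r / 2) (D ^ k), lt_min (by linarith) (by positivity), fun f hf hb i hi z => ?_⟩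
  have hdist : ∀ w, dist (f w) 0 < r := fun w => by
    have h := hb 0 (Nat.zero_le k) w
    rw [norm_iteratedFDeriv_zero] at h
    rw [dist_zero_right]
    linarith [min_le_left (r / 2) (D ^ k)]
  rcases Nat.eq_zero_or_pos i with rfl | hi0
  · rw [norm_iteratedFDeriv_zero]
    exact (hball (hdist z)).2.1.le
  have hmap : MapsTo f univ T := fun w _ => (hball (hdist w)).2.2
  have h := norm_iteratedFDerivWithin_comp_le hΦ hf.contDiffOn (nat_le_infty i)
    hT.uniqueDiffOn uniqueDiffOn_univ hmap (mem_univ z) (C := C) (D := D) (n := i)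
    (fun j hj => ((Finset.single_le_sum (f := fun j => ‖iteratedFDerivWithin ℝ j Φ T (f z)‖)
      (fun _ _ => norm_nonneg _) (Finset.mem_range.2 (by omega))).trans
        (hball (hdist z)).1.le))
    (fun j hj1 hj => by
      rw [iteratedFDerivWithin_univ]
      exact ((hb j (by omega) z).trans (min_le_right _ _)).trans
        (pow_le_pow_of_le_one hD0.le hD1 (by omega)))
  rw [iteratedFDerivWithin_univ] at h
  refine h.trans ?_
  calc (i.factorial : ℝ) * C * D ^ i ≤ k.factorial * C * D := by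
        refine mul_le_mul ?_ (pow_le_of_le_one hD0.le hD1 (by omega)) (by positivity) (by positivity)
        exact mul_le_mul_of_nonneg_right (by exact_mod_cast Nat.factorial_le hi) hC.le
    _ ≤ ε := hDε

/-- Composition with the inverse hodograph keeps derivatives small: if the derivative of `X` is a
constant plus `L (w ↦ (X w, w.2))` with `L` small, then the higher derivatives of `X` are small. -/
lemma small_inverse {X : E2 → ℝ} (hX : ContDiff ℝ ∞ X) {L0 : E2 →L[ℝ] ℝ}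
    {L : E2 → E2 →L[ℝ] ℝ} (hL : ContDiff ℝ ∞ L)
    (hd : ∀ z, fderiv ℝ X z = L0 + L (X z, z.2)) {ε : ℝ} (hε : 0 ≤ ε) {k : ℕ}
    (hb : ∀ i ≤ k, ∀ z, ‖iteratedFDeriv ℝ i L z‖ ≤ ε) (hL0 : ‖L0‖ ≤ 1)
    (hs : (k.factorial : ℝ) * ε * 4 ^ k ≤ 1) :
    ∀ j ≤ k, ∀ z, ‖iteratedFDeriv ℝ j (fun w : E2 => L (X w, w.2)) z‖ ≤
      (k.factorial : ℝ) * ε * 4 ^ k := by
  intro j
  induction j using Nat.strong_induction_on with
  | _ j ih =>
    intro hj z
    set Ψ : E2 → E2 := fun w => (X w, w.2) with hΨ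
    have hψs : ContDiff ℝ ∞ Ψ := hX.prodMk contDiff_snd
    have hid : ∀ i, 1 ≤ i → i ≤ j → ‖iteratedFDeriv ℝ i Ψ z‖ ≤ 4 ^ i := by
      intro i hi1 hi
      obtain ⟨p, rfl⟩ := Nat.exists_eq_add_of_le' hi1
      have hX1 : ‖iteratedFDeriv ℝ (p + 1) X z‖ ≤ 2 := by
        rw [← norm_iteratedFDeriv_fderiv]
        have hLΨ : ContDiff ℝ p fun w => L (Ψ w) := (hL.comp hψs).of_le (nat_le_infty p)
        rw [show fderiv ℝ X = (fun _ : E2 => L0) + fun w => L (Ψ w) from funext hd,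
          iteratedFDeriv_add_apply contDiffAt_const hLΨ.contDiffAt]
        refine (norm_add_le _ _).trans ?_
        have h2 := ih p (by omega) (by omega) z
        have h1 : ‖iteratedFDeriv ℝ p (fun _ : E2 => L0) z‖ ≤ 1 := by
          rcases Nat.eq_zero_or_pos p with rfl | hp
          · rw [norm_iteratedFDeriv_zero]; exact hL0
          · rw [iteratedFDeriv_const_of_ne hp.ne']; simp
        linarith
      have hsnd : ‖iteratedFDeriv ℝ (p + 1) (fun w : E2 => w.2) z‖ ≤ 1 := by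
        rw [← norm_iteratedFDeriv_fderiv]
        have e : fderiv ℝ (fun w : E2 => w.2) = fun _ => ContinuousLinearMap.snd ℝ ℝ ℝ := by
          funext w; exact fderiv_snd
        rw [e]
        rcases Nat.eq_zero_or_pos p with rfl | hp
        · rw [norm_iteratedFDeriv_zero]; exact ContinuousLinearMap.norm_snd_le ℝ ℝ ℝ
        · rw [iteratedFDeriv_const_of_ne hp.ne']; simp
      rw [hΨ, iteratedFDeriv_prodMk (hX.of_le (nat_le_infty _)).contDiffAt
        contDiff_snd.contDiffAt le_rfl, ContinuousMultilinearMap.opNorm_prod]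
      refine max_le (hX1.trans ?_) (hsnd.trans (one_le_pow₀ (by norm_num)))
      exact le_trans (by norm_num) (le_self_pow₀ (by norm_num : (1 : ℝ) ≤ 4) (by omega))
    refine (norm_iteratedFDeriv_comp_le hL hψs (nat_le_infty j) z
      (fun i hi => hb i (hi.trans hj) _) hid).trans ?_
    refine mul_le_mul ?_ (pow_le_pow_right₀ (by norm_num) hj) (by positivity) (by positivity)
    exact mul_le_mul_of_nonneg_right (by exact_mod_cast Nat.factorial_le hj) hε

end Vale.Agent.P229
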